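import Vale.Agent.P369.H400G.Fin
import Vale.Agent.P369.G351.IsoHot

namespace Vale.Agent.Results.P369.OneGaussianInput

open Vale.Agent.P369 (Conf)
open Vale.Agent.P369.Sys

/-- The entropy photon-number inequality for every number of modes, every transmissivity and
every pair of inputs of finite mean photon number such that one of the two inputs (either one) is
an arbitrary Gaussian state (any displacement, squeezing, correlations and temperatures), the
other input being arbitrary; and for every pair of inputs that are diagonal in the number states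
of modes with the same linear part (in particular all number-diagonal pairs). -/
theorem result {n : ℕ} (hn : 1 ≤ n) {η : ℝ} (h0 : 0 ≤ η) (h1 : η ≤ 1)
    {H K : Type} [NormedAddCommGroup H] [InnerProductSpace ℂ H] [CompleteSpace H]
    [NormedAddCommGroup K] [InnerProductSpace ℂ K] [CompleteSpace K]
    (e : Conf n → H) (he : IsNumberBasis e)
    (f : Conf n → Conf n → K) (hf : IsNumberBasis fun x : Conf n × Conf n => f x.1 x.2)
    (ρA ρB : H →L[ℂ] H) (hA : IsState e ρA) (hB : IsState e ρB)
    (eA : FiniteEnergy e ρA) (eB : FiniteEnergy e ρB)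
    (hAB : IsGaussian e ρB ∨ IsGaussian e ρA ∨
      ∃ (α β : Matrix (Fin n) (Fin n) ℂ) (γA γB : Fin n → ℂ) (a b : Conf n → H),
        IsModeChange α β γA e a ∧ IsModeChange α β γB e b ∧
        IsNumberDiagonal a ρA ∧ IsNumberDiagonal b ρB) :
    (∃ ρC : H →L[ℂ] H, IsOutput η e f ρA ρB ρC) ∧
    ∀ ρC : H →L[ℂ] H, IsOutput η e f ρA ρB ρC → IsState e ρC ∧ FiniteEnergy e ρC ∧
      η * photonNumber e ρA + (1 - η) * photonNumber e ρB ≤ photonNumber e ρC := by
  have hhot : Vale.Agent.P369N.HotAll n := fun _ _ _ hρ ht hk =>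
    Vale.Agent.P369G.isoHot_CkV hρ ht hk
  rcases hAB with h | h | ⟨α, β, γA, γB, a, b, ha, hb, dA, dB⟩
  · exact Vale.Agent.P369Y.FinN.fin_gaussian_second hn hhot h0 h1 he hf hA hB eA eB h
  · exact Vale.Agent.P369Y.FinN.fin_gaussian_first hn hhot h0 h1 he hf hA hB eA eB h
  · exact Vale.Agent.P369Y.FinN.fin_diagonal hn h0 h1 he hf ha hb hA hB eA eB dA dB

end Vale.Agent.Results.P369.OneGaussianInput
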