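import Vale.Agent.P369.H326.Final
import Vale.Agent.P369.G351.IsoHot

namespace Vale.Agent.Results.P369.OneThermalProductInput

open Vale.Agent.P369 (Conf)
open Vale.Agent.P369.Sys

/-- The entropy photon-number inequality for every number of modes, every transmissivity and
every pair of inputs of finite mean photon number such that one of the two inputs (either one) is
a product of thermal states of arbitrary, possibly different, mean photon numbers `s j`, the other
input being arbitrary; and for every pair of number-diagonal inputs. -/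
theorem result {n : ℕ} (hn : 1 ≤ n) {η : ℝ} (h0 : 0 ≤ η) (h1 : η ≤ 1)
    {H K : Type} [NormedAddCommGroup H] [InnerProductSpace ℂ H] [CompleteSpace H]
    [NormedAddCommGroup K] [InnerProductSpace ℂ K] [CompleteSpace K]
    (e : Conf n → H) (he : IsNumberBasis e)
    (f : Conf n → Conf n → K) (hf : IsNumberBasis fun x : Conf n × Conf n => f x.1 x.2)
    (ρA ρB : H →L[ℂ] H) (hA : IsState e ρA) (hB : IsState e ρB)
    (eA : FiniteEnergy e ρA) (eB : FiniteEnergy e ρB)
    (hAB : (∃ s : Fin n → ℝ, (∀ j, 0 ≤ s j) ∧ ∀ k : Conf n,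
        ρB (e k) = ((∏ j, s j ^ k j / (s j + 1) ^ (k j + 1) : ℝ) : ℂ) • e k) ∨
      (∃ s : Fin n → ℝ, (∀ j, 0 ≤ s j) ∧ ∀ k : Conf n,
        ρA (e k) = ((∏ j, s j ^ k j / (s j + 1) ^ (k j + 1) : ℝ) : ℂ) • e k) ∨
      (IsNumberDiagonal e ρA ∧ IsNumberDiagonal e ρB)) :
    (∃ ρC : H →L[ℂ] H, IsOutput η e f ρA ρB ρC) ∧
    ∀ ρC : H →L[ℂ] H, IsOutput η e f ρA ρB ρC → IsState e ρC ∧ FiniteEnergy e ρC ∧
      η * photonNumber e ρA + (1 - η) * photonNumber e ρB ≤ photonNumber e ρC := by
  have hhot : Vale.Agent.P369N.HotAll n := fun _ _ _ hρ ht hk =>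
    Vale.Agent.P369G.isoHot_CkV hρ ht hk
  rcases hAB with ⟨s, hs, h⟩ | ⟨s, hs, h⟩ | ⟨pA, pB⟩
  · exact Vale.Agent.P369N.epni_thermal_second hn hhot h0 h1 e he f hf ρA ρB hA eA hs h
  · exact Vale.Agent.P369N.epni_thermal_first hn hhot h0 h1 e he f hf ρA ρB hB eB hs h
  · exact Vale.Agent.P369.epni_number hn h0 h1 e he f hf ρA ρB hA hB eA eB pA pB

end Vale.Agent.Results.P369.OneThermalProductInput
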